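import Mathlib

/-!
# P160: a numeric lemma about factorials (pool job P160-K, backup copy of helper68)

If `ε * log₂ n ≥ 100` and `ε ≤ 1` then
`2 ^ (9 n) ≤ (n - ⌊(1 - ε) n⌋ - ⌈40 n / log₂ n⌉)!`.
-/

namespace Vale.Agent.Lib.P160.H68

open Real

/-- `L ≤ 2 ^ (L / 2)` for `L ≥ 100`. -/
theorem h68_le_two_rpow_half (L : ℝ) (hL : 100 ≤ L) : L ≤ (2 : ℝ) ^ (L / 2) := by
  have hlog : (0.69 : ℝ) < Real.log 2 := by
    have := Real.log_two_gt_d9
    linarith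
  have h2 : (2 : ℝ) ^ (L / 2) = Real.exp (Real.log 2 * (L / 2)) := by
    rw [Real.rpow_def_of_pos (by norm_num : (0 : ℝ) < 2)]
  rw [h2]
  set y : ℝ := Real.log 2 * (L / 2) with hy
  have hy0 : 0 ≤ y := by positivity
  have hyL : 0.345 * L ≤ y := by
    rw [hy]; nlinarith
  have hexp : 1 + y + y ^ 2 / 2 ≤ Real.exp y := by
    have := Real.quadratic_le_exp_of_nonneg hy0
    linarith
  nlinarith

theorem basis_num (ε : ℝ) (n : ℕ) (h : 100 ≤ ε * Real.logb 2 (n : ℝ)) (hε : ε ≤ 1) :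
    2 ^ (9 * n) ≤
      (n - ⌊(1 - ε) * (n : ℝ)⌋₊ - ⌈40 * (n : ℝ) / Real.logb 2 (n : ℝ)⌉₊).factorial := by
  set L : ℝ := Real.logb 2 (n : ℝ) with hLdef
  -- basic facts on `L`, `ε`, `n`
  have hL0 : 0 ≤ L := by
    rcases Nat.eq_zero_or_pos n with hn | hn
    · subst hn; simp [hLdef]
    · exact Real.logb_nonneg (by norm_num) (by exact_mod_cast hn)
  have hLpos : 0 < L := by
    rcases hL0.eq_or_lt with h0 | h0
    · rw [← h0] at h; norm_num at h
    · exact h0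
  have hεpos : 0 < ε := by
    by_contra hneg
    have hneg' : ε ≤ 0 := not_lt.mp hneg
    nlinarith
  have hL100 : 100 ≤ L := by nlinarith
  have hnpos : 0 < n := by
    rcases Nat.eq_zero_or_pos n with hn | hn
    · subst hn; simp [hLdef] at hLpos
    · exact hn
  have hnR : (0 : ℝ) < n := by exact_mod_cast hnpos
  have hn2L : (2 : ℝ) ^ L = n := Real.rpow_logb (by norm_num) (by norm_num) hnR
  have hhalf : L ≤ (2 : ℝ) ^ (L / 2) := h68_le_two_rpow_half L hL100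
  have hsq : (2 : ℝ) ^ (L / 2) * (2 : ℝ) ^ (L / 2) = n := by
    rw [← Real.rpow_add (by norm_num : (0 : ℝ) < 2)]
    rw [show L / 2 + L / 2 = L by ring, hn2L]
  have hhalfpos : (0 : ℝ) < (2 : ℝ) ^ (L / 2) := Real.rpow_pos_of_pos (by norm_num) _
  -- `2 ^ (L/2) ≤ n / L`
  have hnL : (2 : ℝ) ^ (L / 2) ≤ n / L := by
    rw [le_div_iff₀ hLpos]
    nlinarith
  have hnL1 : (1 : ℝ) ≤ n / L := by
    have : (1 : ℝ) ≤ (2 : ℝ) ^ (L / 2) := by linarith
    linarith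
  set Q : ℝ := (n : ℝ) / L with hQ
  have hQn : Q * L = n := by rw [hQ]; field_simp
  -- the three natural numbers
  set d : ℕ := ⌊(1 - ε) * (n : ℝ)⌋₊ with hd
  set c : ℕ := ⌈40 * (n : ℝ) / L⌉₊ with hc
  set k : ℕ := n - d - c with hk
  have hdle : (d : ℝ) ≤ (1 - ε) * n := Nat.floor_le (by nlinarith)
  have hclt : (c : ℝ) < 40 * (n : ℝ) / L + 1 := Nat.ceil_lt_add_one (by positivity)
  have hk1 : (n : ℝ) ≤ ((n - d : ℕ) : ℝ) + d := by exact_mod_cast le_tsub_add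
  have hk2 : ((n - d : ℕ) : ℝ) ≤ (k : ℝ) + c := by
    rw [hk]; exact_mod_cast le_tsub_add
  have hεn : 100 * Q ≤ ε * n := by
    have : 100 * Q ≤ ε * (Q * L) := by nlinarith
    rwa [hQn] at this
  have h40 : 40 * (n : ℝ) / L = 40 * Q := by rw [hQ]; ring
  have hkR : 59 * Q ≤ (k : ℝ) := by
    rw [h40] at hclt
    nlinarith
  -- the exponent `a` and the base `j`
  set a : ℕ := ⌊L / 2⌋₊ with ha
  have haL : (a : ℝ) ≤ L / 2 := Nat.floor_le (by positivity)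
  have haL' : L / 2 - 1 < (a : ℝ) := by
    have := Nat.lt_floor_add_one (L / 2)
    linarith
  set j : ℕ := k / 2 with hj
  have hjk : k ≤ 2 * j + 1 := by omega
  have hjk' : 2 * j ≤ k := by omega
  have hjR : (k : ℝ) ≤ 2 * (j : ℝ) + 1 := by exact_mod_cast hjk
  have hjR' : 2 * (j : ℝ) ≤ k := by exact_mod_cast hjk'
  have hkj : ((k - j : ℕ) : ℝ) = (k : ℝ) - j := by
    rw [Nat.cast_sub (by omega)]
  -- `2 ^ a ≤ j`
  have h2a : (2 : ℝ) ^ a ≤ (j : ℝ) := by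
    have h1 : (2 : ℝ) ^ a ≤ (2 : ℝ) ^ (L / 2) := by
      rw [← Real.rpow_natCast]
      exact Real.rpow_le_rpow_of_exponent_le (by norm_num) haL
    have h2 : Q ≤ (j : ℝ) := by nlinarith
    linarith
  have h2aN : 2 ^ a ≤ j := by exact_mod_cast h2a
  -- `9 n ≤ a (k - j)`
  have hexp : 9 * n ≤ a * (k - j) := by
    have hR : (9 : ℝ) * n ≤ (a : ℝ) * ((k : ℝ) - j) := by
      have h3 : (59 / 2 : ℝ) * Q ≤ (k : ℝ) - j := by linarith
      have h4 : (49 : ℝ) ≤ a := by linarith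
      have h5 : (0 : ℝ) ≤ Q := by positivity
      -- a * (k - j) ≥ (L/2 - 1) * (59/2) Q = (59/4) Q L - (59/2) Q
      have h6 : (L / 2 - 1) * ((59 / 2 : ℝ) * Q) ≤ (a : ℝ) * ((k : ℝ) - j) := by
        apply mul_le_mul haL'.le h3 (by positivity) (by linarith)
      have h7 : (L / 2 - 1) * ((59 / 2 : ℝ) * Q) = (59 / 4 : ℝ) * (Q * L) - (59 / 2) * Q := by
        ring
      have h8 : Q * 100 ≤ Q * L := by nlinarith
      rw [hQn] at h7 h8
      nlinarith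
    have : ((9 * n : ℕ) : ℝ) ≤ ((a * (k - j) : ℕ) : ℝ) := by
      push_cast
      rw [hkj]
      exact hR
    exact_mod_cast this
  calc 2 ^ (9 * n) ≤ 2 ^ (a * (k - j)) := Nat.pow_le_pow_right (by norm_num) hexp
    _ = (2 ^ a) ^ (k - j) := by rw [pow_mul]
    _ ≤ j ^ (k - j) := Nat.pow_le_pow_left h2aN _
    _ ≤ j.factorial * j ^ (k - j) := Nat.le_mul_of_pos_left _ (Nat.factorial_pos _)
    _ ≤ k.factorial := Nat.factorial_mul_pow_sub_le_factorial (by omega)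

end Vale.Agent.Lib.P160.H68
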