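import Mathlib

/-!
# P160, job 293 piece SS-2: the concrete hop/entry chain on subsets of `Fin (m+1)`

Positions are `0, 1, ..., m` (so `n = m + 1` positions).  A *hop* moves an element of `S` from
position `k` to the free position `k + 1` (`k : Fin m`, from `k.castSucc` to `k.succ`) and has
weight `rw m k = 1 - (k+1)/(m+1)`; the *entry* move inserts position `0` when it is free and has
weight `1/2`.  This file proves the hypotheses of the abstract chain lemma for this kernel, in
particular the balance identity `in S - out S = (card S - (m+1)/2)/(m+1)`.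
-/

namespace Vale.Agent.Lib.P160.H68

open Finset

/-- weight of the hop from position `k` to position `k+1`: `1 - (k+1)/(m+1)` -/
noncomputable def rw (m : ℕ) (k : Fin m) : ℝ := 1 - ((k : ℕ) + 1 : ℝ) / ((m : ℝ) + 1)

/-- the hop/entry weight kernel on subsets of `Fin (m+1)` -/
noncomputable def q (m : ℕ) (S S' : Finset (Fin (m + 1))) : ℝ :=
  (∑ k : Fin m, if k.castSucc ∈ S ∧ k.succ ∉ S ∧ S' = insert k.succ (S.erase k.castSucc)
      then rw m k else 0) +
  (if (0 : Fin (m + 1)) ∉ S ∧ S' = insert 0 S then 1 / 2 else 0)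

/-- number of descents in the lower half: `k` with `2 (k+1) ≤ m+1`, `k ∈ S`, `k+1 ∉ S` -/
def desc (m : ℕ) (S : Finset (Fin (m + 1))) : ℕ :=
  (univ.filter fun k : Fin m => 2 * ((k : ℕ) + 1) ≤ m + 1 ∧ k.castSucc ∈ S ∧ k.succ ∉ S).card

theorem rw_nonneg (m : ℕ) (k : Fin m) : 0 ≤ rw m k := by
  unfold rw
  have hk : ((k : ℕ) : ℝ) + 1 ≤ (m : ℝ) + 1 := by
    have := k.isLt
    have : ((k : ℕ) : ℝ) ≤ (m : ℝ) := by exact_mod_cast this.le
    linarith
  have hm : (0 : ℝ) < (m : ℝ) + 1 := by positivity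
  rw [sub_nonneg, div_le_one hm]
  exact hk

theorem rw_le_one (m : ℕ) (k : Fin m) : rw m k ≤ 1 := by
  unfold rw
  have : (0 : ℝ) ≤ ((k : ℕ) + 1 : ℝ) / ((m : ℝ) + 1) := by positivity
  linarith

theorem rw_ge_half (m : ℕ) (k : Fin m) (h : 2 * ((k : ℕ) + 1) ≤ m + 1) : 1 / 2 ≤ rw m k := by
  unfold rw
  have hm : (0 : ℝ) < (m : ℝ) + 1 := by positivity
  have h' : 2 * (((k : ℕ) : ℝ) + 1) ≤ (m : ℝ) + 1 := by exact_mod_cast h
  have : ((k : ℕ) + 1 : ℝ) / ((m : ℝ) + 1) ≤ 1 / 2 := by
    rw [div_le_iff₀ hm]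
    linarith
  linarith

theorem q_nonneg (m : ℕ) (S S' : Finset (Fin (m + 1))) : 0 ≤ q m S S' := by
  unfold q
  apply add_nonneg
  · apply Finset.sum_nonneg
    intro k _
    split_ifs
    · exact rw_nonneg m k
    · exact le_rfl
  · split_ifs <;> norm_num

/-- swapping two distinct positions: the hop relation read backwards -/
theorem swap_iff {α : Type} [DecidableEq α] {a b : α} (hab : a ≠ b) (S S' : Finset α) :
    (a ∈ S' ∧ b ∉ S' ∧ S = insert b (S'.erase a)) ↔
      (b ∈ S ∧ a ∉ S ∧ S' = insert a (S.erase b)) := by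
  constructor
  · rintro ⟨ha, hb, rfl⟩
    refine ⟨mem_insert_self _ _, ?_, ?_⟩
    · simp [hab]
    · ext x
      by_cases hxa : x = a
      · subst hxa; simp [ha]
      · by_cases hxb : x = b
        · subst hxb; simp [hb, hxa]
        · simp [hxa, hxb]
  · rintro ⟨hb, ha, rfl⟩
    refine ⟨mem_insert_self _ _, ?_, ?_⟩
    · simp [hab.symm]
    · ext x
      by_cases hxa : x = a
      · subst hxa; simp [ha, hab]
      · by_cases hxb : x = b
        · subst hxb; simp [hb]
        · simp [hxa, hxb]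

theorem entry_iff {α : Type} [DecidableEq α] (a : α) (S S' : Finset α) :
    (a ∉ S' ∧ S = insert a S') ↔ (a ∈ S ∧ S' = S.erase a) := by
  constructor
  · rintro ⟨ha, rfl⟩
    exact ⟨mem_insert_self _ _, (erase_insert ha).symm⟩
  · rintro ⟨ha, rfl⟩
    exact ⟨notMem_erase _ _, (insert_erase ha).symm⟩

/-- total outgoing weight -/
theorem out_eq (m : ℕ) (S : Finset (Fin (m + 1))) :
    ∑ S', q m S S' =
      (∑ k : Fin m, if k.castSucc ∈ S ∧ k.succ ∉ S then rw m k else 0) +
        (if (0 : Fin (m + 1)) ∉ S then 1 / 2 else 0) := by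
  unfold q
  rw [Finset.sum_add_distrib, Finset.sum_comm]
  congr 1
  · apply Finset.sum_congr rfl
    intro k _
    by_cases h : k.castSucc ∈ S ∧ k.succ ∉ S
    · rw [if_pos h]
      have : ∀ S' : Finset (Fin (m + 1)),
          (if k.castSucc ∈ S ∧ k.succ ∉ S ∧ S' = insert k.succ (S.erase k.castSucc)
            then rw m k else 0) =
          if S' = insert k.succ (S.erase k.castSucc) then rw m k else 0 := by
        intro S'
        by_cases h2 : S' = insert k.succ (S.erase k.castSucc)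
        · rw [if_pos ⟨h.1, h.2, h2⟩, if_pos h2]
        · rw [if_neg (fun hh => h2 hh.2.2), if_neg h2]
      rw [Finset.sum_congr rfl (fun S' _ => this S')]
      simp
    · rw [if_neg h]
      apply Finset.sum_eq_zero
      intro S' _
      rw [if_neg (fun hh => h ⟨hh.1, hh.2.1⟩)]
  · by_cases h : (0 : Fin (m + 1)) ∉ S
    · rw [if_pos h]
      have : ∀ S' : Finset (Fin (m + 1)),
          (if (0 : Fin (m + 1)) ∉ S ∧ S' = insert 0 S then (1 / 2 : ℝ) else 0) =
          if S' = insert 0 S then (1 / 2 : ℝ) else 0 := by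
        intro S'
        by_cases h2 : S' = insert 0 S
        · rw [if_pos ⟨h, h2⟩, if_pos h2]
        · rw [if_neg (fun hh => h2 hh.2), if_neg h2]
      rw [Finset.sum_congr rfl (fun S' _ => this S')]
      simp
    · rw [if_neg h]
      apply Finset.sum_eq_zero
      intro S' _
      rw [if_neg (fun hh => h hh.1)]

/-- total incoming weight -/
theorem in_eq (m : ℕ) (S : Finset (Fin (m + 1))) :
    ∑ S', q m S' S =
      (∑ k : Fin m, if k.succ ∈ S ∧ k.castSucc ∉ S then rw m k else 0) +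
        (if (0 : Fin (m + 1)) ∈ S then 1 / 2 else 0) := by
  unfold q
  rw [Finset.sum_add_distrib, Finset.sum_comm]
  congr 1
  · apply Finset.sum_congr rfl
    intro k _
    have hne : k.castSucc ≠ k.succ := (Fin.castSucc_lt_succ (i := k)).ne
    by_cases h : k.succ ∈ S ∧ k.castSucc ∉ S
    · rw [if_pos h]
      have : ∀ S' : Finset (Fin (m + 1)),
          (if k.castSucc ∈ S' ∧ k.succ ∉ S' ∧ S = insert k.succ (S'.erase k.castSucc)
            then rw m k else 0) =
          if S' = insert k.castSucc (S.erase k.succ) then rw m k else 0 := by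
        intro S'
        by_cases h2 : S' = insert k.castSucc (S.erase k.succ)
        · rw [if_pos ((swap_iff hne S S').2 ⟨h.1, h.2, h2⟩), if_pos h2]
        · rw [if_neg (fun hh => h2 ((swap_iff hne S S').1 hh).2.2), if_neg h2]
      rw [Finset.sum_congr rfl (fun S' _ => this S')]
      simp
    · rw [if_neg h]
      apply Finset.sum_eq_zero
      intro S' _
      rw [if_neg (fun hh => h ⟨((swap_iff hne S S').1 hh).1, ((swap_iff hne S S').1 hh).2.1⟩)]
  · by_cases h : (0 : Fin (m + 1)) ∈ S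
    · rw [if_pos h]
      have : ∀ S' : Finset (Fin (m + 1)),
          (if (0 : Fin (m + 1)) ∉ S' ∧ S = insert 0 S' then (1 / 2 : ℝ) else 0) =
          if S' = S.erase 0 then (1 / 2 : ℝ) else 0 := by
        intro S'
        by_cases h2 : S' = S.erase 0
        · rw [if_pos ((entry_iff 0 S S').2 ⟨h, h2⟩), if_pos h2]
        · rw [if_neg (fun hh => h2 ((entry_iff 0 S S').1 hh).2), if_neg h2]
      rw [Finset.sum_congr rfl (fun S' _ => this S')]
      simp
    · rw [if_neg h]
      apply Finset.sum_eq_zero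
      intro S' _
      rw [if_neg (fun hh => h ((entry_iff 0 S S').1 hh).1)]

/-- summation by parts for the hop weights -/
theorem abel (m : ℕ) (s : Fin (m + 1) → ℝ) :
    ∑ k : Fin m, rw m k * (s k.succ - s k.castSucc) = (∑ i, s i) / ((m : ℝ) + 1) - s 0 := by
  have hm : (0 : ℝ) < (m : ℝ) + 1 := by positivity
  have hm' : ((m : ℝ) + 1) ≠ 0 := hm.ne'
  have h1 : ∑ k : Fin m, rw m k * s k.succ =
      ∑ i : Fin (m + 1), ((((m : ℝ) + 1) - ((i : ℕ) : ℝ)) / ((m : ℝ) + 1)) * s i - s 0 := by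
    rw [Fin.sum_univ_succ]
    have h0 : ((((m : ℝ) + 1) - (((0 : Fin (m + 1)) : ℕ) : ℝ)) / ((m : ℝ) + 1)) * s 0 = s 0 := by
      simp [hm']
    rw [h0, add_sub_cancel_left]
    apply Finset.sum_congr rfl
    intro k _
    unfold rw
    congr 1
    rw [Fin.val_succ]
    push_cast
    field_simp
  have h2 : ∑ k : Fin m, rw m k * s k.castSucc =
      ∑ i : Fin (m + 1), (((m : ℝ) - ((i : ℕ) : ℝ)) / ((m : ℝ) + 1)) * s i := by
    rw [Fin.sum_univ_castSucc]
    have h0 : (((m : ℝ) - (((Fin.last m : Fin (m + 1)) : ℕ) : ℝ)) / ((m : ℝ) + 1)) *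
        s (Fin.last m) = 0 := by
      simp
    rw [h0, add_zero]
    apply Finset.sum_congr rfl
    intro k _
    unfold rw
    congr 1
    rw [Fin.val_castSucc]
    field_simp
    ring
  calc ∑ k : Fin m, rw m k * (s k.succ - s k.castSucc)
      = ∑ k : Fin m, rw m k * s k.succ - ∑ k : Fin m, rw m k * s k.castSucc := by
        rw [← Finset.sum_sub_distrib]
        apply Finset.sum_congr rfl
        intro k _
        ring
    _ = ∑ i : Fin (m + 1), (1 / ((m : ℝ) + 1)) * s i - s 0 := by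
        rw [h1, h2]
        have : ∑ i : Fin (m + 1), (1 / ((m : ℝ) + 1)) * s i =
            ∑ i : Fin (m + 1), ((((m : ℝ) + 1) - ((i : ℕ) : ℝ)) / ((m : ℝ) + 1)) * s i -
              ∑ i : Fin (m + 1), (((m : ℝ) - ((i : ℕ) : ℝ)) / ((m : ℝ) + 1)) * s i := by
          rw [← Finset.sum_sub_distrib]
          apply Finset.sum_congr rfl
          intro i _
          field_simp
          ring
        rw [this]
        ring
    _ = (∑ i, s i) / ((m : ℝ) + 1) - s 0 := by
        rw [← Finset.mul_sum]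
        ring

/-- the balance identity: `in S - out S = (card S - (m+1)/2)/(m+1)` -/
theorem bal (m : ℕ) (S : Finset (Fin (m + 1))) :
    ∑ S', q m S' S - ∑ S', q m S S' =
      ((S.card : ℝ) - ((m + 1 : ℕ) : ℝ) / 2) / ((m + 1 : ℕ) : ℝ) := by
  have hm : (0 : ℝ) < (m : ℝ) + 1 := by positivity
  rw [in_eq, out_eq]
  set s : Fin (m + 1) → ℝ := fun i => if i ∈ S then 1 else 0 with hs
  have hk : ∀ k : Fin m,
      (if k.succ ∈ S ∧ k.castSucc ∉ S then rw m k else 0) -
        (if k.castSucc ∈ S ∧ k.succ ∉ S then rw m k else 0) =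
      rw m k * (s k.succ - s k.castSucc) := by
    intro k
    simp only [hs]
    by_cases hA : k.castSucc ∈ S <;> by_cases hB : k.succ ∈ S <;> simp [hA, hB]
  have h0 : (if (0 : Fin (m + 1)) ∈ S then (1 / 2 : ℝ) else 0) -
      (if (0 : Fin (m + 1)) ∉ S then (1 / 2 : ℝ) else 0) = s 0 - 1 / 2 := by
    simp only [hs]
    by_cases hA : (0 : Fin (m + 1)) ∈ S
    · simp [hA]; norm_num
    · simp [hA]
  have hcard : ∑ i, s i = (S.card : ℝ) := by
    simp only [hs]
    rw [Finset.sum_boole]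
    simp
  have key : (∑ k : Fin m, if k.succ ∈ S ∧ k.castSucc ∉ S then rw m k else 0) -
      (∑ k : Fin m, if k.castSucc ∈ S ∧ k.succ ∉ S then rw m k else 0) =
      (S.card : ℝ) / ((m : ℝ) + 1) - s 0 := by
    rw [← Finset.sum_sub_distrib, Finset.sum_congr rfl (fun k _ => hk k), abel, hcard]
  have e : ((m + 1 : ℕ) : ℝ) = (m : ℝ) + 1 := by push_cast; ring
  rw [e]
  have : ((S.card : ℝ) - ((m : ℝ) + 1) / 2) / ((m : ℝ) + 1) =
      (S.card : ℝ) / ((m : ℝ) + 1) - 1 / 2 := by
    field_simp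
  rw [this]
  linarith [key, h0]

/-- a nonzero weight is a hop or the entry move -/
theorem q_ne_zero {m : ℕ} {S S' : Finset (Fin (m + 1))} (h : q m S S' ≠ 0) :
    (∃ k : Fin m, k.castSucc ∈ S ∧ k.succ ∉ S ∧ S' = insert k.succ (S.erase k.castSucc)) ∨
      ((0 : Fin (m + 1)) ∉ S ∧ S' = insert 0 S) := by
  by_contra hcon
  rw [not_or] at hcon
  apply h
  unfold q
  rw [if_neg hcon.2, add_zero]
  apply Finset.sum_eq_zero
  intro k _
  rw [if_neg]
  intro hh
  exact hcon.1 ⟨k, hh⟩

theorem card_hop {m : ℕ} {S : Finset (Fin (m + 1))} {k : Fin m} (hA : k.castSucc ∈ S)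
    (hB : k.succ ∉ S) : (insert k.succ (S.erase k.castSucc)).card = S.card := by
  have hB' : k.succ ∉ S.erase k.castSucc := fun hh => hB (mem_of_mem_erase hh)
  rw [card_insert_of_notMem hB', card_erase_of_mem hA]
  have : 0 < S.card := card_pos.2 ⟨_, hA⟩
  omega

/-- sizes: a move keeps the cardinality or raises it by one -/
theorem q_card {m : ℕ} (S' S : Finset (Fin (m + 1))) (h : q m S' S ≠ 0) :
    S'.card = S.card ∨ S'.card + 1 = S.card := by
  rcases q_ne_zero h with ⟨k, hA, hB, rfl⟩ | ⟨h0, rfl⟩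
  · left; exact (card_hop hA hB).symm
  · right; exact (card_insert_of_notMem h0).symm

/-- every move strictly increases the sum of a strictly increasing positive sequence -/
theorem q_sum_lt {m : ℕ} (a : Fin (m + 1) → ℝ) (hpos : ∀ i, 0 < a i) (hmono : StrictMono a)
    (S S' : Finset (Fin (m + 1))) (h : q m S S' ≠ 0) : ∑ i ∈ S, a i < ∑ i ∈ S', a i := by
  rcases q_ne_zero h with ⟨k, hA, hB, rfl⟩ | ⟨h0, rfl⟩
  · have hB' : k.succ ∉ S.erase k.castSucc := fun hh => hB (mem_of_mem_erase hh)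
    rw [Finset.sum_insert hB']
    have h1 : ∑ i ∈ S.erase k.castSucc, a i + a k.castSucc = ∑ i ∈ S, a i :=
      Finset.sum_erase_add S a hA
    have h2 : a k.castSucc < a k.succ := hmono (Fin.castSucc_lt_succ (i := k))
    linarith
  · rw [Finset.sum_insert h0]
    linarith [hpos 0]

/-- the entry predecessors carry weight at most `1/2` -/
theorem q_entry (m : ℕ) (S : Finset (Fin (m + 1))) :
    ∑ S' ∈ univ.filter (fun S' : Finset (Fin (m + 1)) => S'.card + 1 = S.card), q m S' S ≤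
      1 / 2 := by
  have hpt : ∀ S' ∈ univ.filter (fun S' : Finset (Fin (m + 1)) => S'.card + 1 = S.card),
      q m S' S ≤ if S' = S.erase 0 then (1 / 2 : ℝ) else 0 := by
    intro S' hS'
    have hc : S'.card + 1 = S.card := (mem_filter.1 hS').2
    unfold q
    have hz : (∑ k : Fin m,
        if k.castSucc ∈ S' ∧ k.succ ∉ S' ∧ S = insert k.succ (S'.erase k.castSucc)
          then rw m k else 0) = 0 := by
      apply Finset.sum_eq_zero
      intro k _
      rw [if_neg]
      rintro ⟨hA, hB, hS⟩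
      have := card_hop hA hB
      rw [← hS] at this
      omega
    rw [hz, zero_add]
    by_cases h2 : S' = S.erase 0
    · rw [if_pos h2]
      split_ifs <;> norm_num
    · rw [if_neg h2, if_neg (fun hh => h2 ((entry_iff 0 S S').1 hh).2)]
  calc ∑ S' ∈ univ.filter (fun S' : Finset (Fin (m + 1)) => S'.card + 1 = S.card), q m S' S
      ≤ ∑ S' ∈ univ.filter (fun S' : Finset (Fin (m + 1)) => S'.card + 1 = S.card),
          (if S' = S.erase 0 then (1 / 2 : ℝ) else 0) := Finset.sum_le_sum hpt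
    _ ≤ ∑ S' : Finset (Fin (m + 1)), (if S' = S.erase 0 then (1 / 2 : ℝ) else 0) := by
        apply Finset.sum_le_sum_of_subset_of_nonneg (filter_subset _ _)
        intro S' _ _
        split_ifs <;> norm_num
    _ = 1 / 2 := by simp

/-- total outgoing weight is at most `m + 1` -/
theorem out_le (m : ℕ) (S : Finset (Fin (m + 1))) :
    ∑ S', q m S S' ≤ ((m + 1 : ℕ) : ℝ) := by
  rw [out_eq]
  have h1 : (∑ k : Fin m, if k.castSucc ∈ S ∧ k.succ ∉ S then rw m k else 0) ≤
      ∑ _k : Fin m, (1 : ℝ) := by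
    apply Finset.sum_le_sum
    intro k _
    split_ifs
    · exact rw_le_one m k
    · norm_num
  have h2 : (if (0 : Fin (m + 1)) ∉ S then (1 / 2 : ℝ) else 0) ≤ 1 := by
    split_ifs <;> norm_num
  have h3 : ∑ _k : Fin m, (1 : ℝ) = (m : ℝ) := by simp
  push_cast
  linarith

/-- total outgoing weight is at least half the number of descents in the lower half -/
theorem out_ge (m : ℕ) (S : Finset (Fin (m + 1))) :
    (1 / 2 : ℝ) * (desc m S : ℝ) ≤ ∑ S', q m S S' := by
  rw [out_eq]
  have h1 : (1 / 2 : ℝ) * (desc m S : ℝ) =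
      ∑ k : Fin m, if (2 * ((k : ℕ) + 1) ≤ m + 1 ∧ k.castSucc ∈ S ∧ k.succ ∉ S)
        then (1 / 2 : ℝ) else 0 := by
    unfold desc
    rw [Finset.sum_ite, Finset.sum_const_zero, add_zero, Finset.sum_const, nsmul_eq_mul]
    ring
  have h2 : (∑ k : Fin m, if (2 * ((k : ℕ) + 1) ≤ m + 1 ∧ k.castSucc ∈ S ∧ k.succ ∉ S)
        then (1 / 2 : ℝ) else 0) ≤
      ∑ k : Fin m, if k.castSucc ∈ S ∧ k.succ ∉ S then rw m k else 0 := by
    apply Finset.sum_le_sum
    intro k _
    by_cases hA : k.castSucc ∈ S ∧ k.succ ∉ S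
    · rw [if_pos hA]
      by_cases hB : 2 * ((k : ℕ) + 1) ≤ m + 1
      · rw [if_pos ⟨hB, hA⟩]
        exact rw_ge_half m k hB
      · rw [if_neg (fun hh => hB hh.1)]
        exact rw_nonneg m k
    · rw [if_neg hA, if_neg (fun hh => hA hh.2)]
  have h3 : (0 : ℝ) ≤ if (0 : Fin (m + 1)) ∉ S then (1 / 2 : ℝ) else 0 := by
    split_ifs <;> norm_num
  linarith

theorem card_le (m : ℕ) (S : Finset (Fin (m + 1))) : S.card ≤ m + 1 := by
  have := Finset.card_le_univ S
  simpa using this

/-- All hypotheses of the abstract chain lemma (job 293, piece SS-1, with `Ω = Finset (Fin (m+1))`,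
`n = m + 1`, `sz = card`, `f S = ∑ i ∈ S, a i`) for the concrete kernel `q m`, plus the lower
bound of the outgoing weight by the descents. -/
theorem chain_hyps (m : ℕ) (a : Fin (m + 1) → ℝ) (hpos : ∀ i, 0 < a i) (hmono : StrictMono a) :
    (∀ S S' : Finset (Fin (m + 1)), 0 ≤ q m S S') ∧
    (∀ S S' : Finset (Fin (m + 1)), q m S S' ≠ 0 → ∑ i ∈ S, a i < ∑ i ∈ S', a i) ∧
    (∀ S' S : Finset (Fin (m + 1)), q m S' S ≠ 0 → S'.card = S.card ∨ S'.card + 1 = S.card) ∧
    (∀ S : Finset (Fin (m + 1)),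
      ∑ S' ∈ univ.filter (fun S' : Finset (Fin (m + 1)) => S'.card + 1 = S.card), q m S' S ≤
        1 / 2) ∧
    (∀ S : Finset (Fin (m + 1)), ∑ S', q m S' S - ∑ S', q m S S' =
      ((S.card : ℝ) - ((m + 1 : ℕ) : ℝ) / 2) / ((m + 1 : ℕ) : ℝ)) ∧
    (∀ S : Finset (Fin (m + 1)), ∑ S', q m S S' ≤ ((m + 1 : ℕ) : ℝ)) ∧
    (∀ S : Finset (Fin (m + 1)), S.card ≤ m + 1) ∧
    (∀ S : Finset (Fin (m + 1)), (1 / 2 : ℝ) * (desc m S : ℝ) ≤ ∑ S', q m S S') :=
  ⟨q_nonneg m, q_sum_lt a hpos hmono, q_card, q_entry m, bal m, out_le m, card_le m, out_ge m⟩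

end Vale.Agent.Lib.P160.H68
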