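import Vale.Agent.Lib.P160.helper4.SSDefs
import Vale.Agent.Lib.P160.helper4.SSSub
import Vale.Agent.Lib.P160.helper44.ChainLevel
import Vale.Agent.Lib.P160.helper68.Chain

/-!
# P160, job 293: the hypotheses `H1`, `H2` of `H4.subset_sum_of` for the kernel `H4.qq`

`H4.qq (m+1)` is the kernel `H68.q m` of `Chain.lean` (the double sum over `(k, j)` with
`j = k + 1` collapses to a sum over `Fin m`), and `H4.desc (m+1) S ≤ H68.desc m S`.  Together with
the abstract chain lemma `H44.chain_level` this gives the chain estimate `H1` and the descent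
bound `H2` in exactly the shapes of the hypotheses of `H4.subset_sum_of`.
-/

namespace Vale.Agent.Lib.P160.H68

open Finset

/-- the coordinator's kernel on `Fin (m+1)` is the kernel `q m` -/
theorem qq_eq (m : ℕ) (S S' : Finset (Fin (m + 1))) : H4.qq (m + 1) S S' = q m S S' := by
  unfold H4.qq q
  congr 1
  · rw [Fin.sum_univ_castSucc]
    have hlast : ∑ j : Fin (m + 1),
        (if j.val = (Fin.last m).val + 1 ∧ Fin.last m ∈ S ∧ j ∉ S ∧
            S' = insert j (S.erase (Fin.last m))
          then 1 - (j.val : ℝ) / ((m + 1 : ℕ) : ℝ) else 0) = 0 := by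
      apply Finset.sum_eq_zero
      intro j _
      rw [if_neg]
      rintro ⟨h, -⟩
      have := j.isLt
      rw [Fin.val_last] at h
      omega
    rw [hlast, add_zero]
    apply Finset.sum_congr rfl
    intro k _
    rw [Finset.sum_eq_single k.succ]
    · by_cases h : k.castSucc ∈ S ∧ k.succ ∉ S ∧ S' = insert k.succ (S.erase k.castSucc)
      · rw [if_pos h, if_pos ⟨by simp, h⟩]
        unfold rw
        rw [Fin.val_succ]
        push_cast
        ring
      · rw [if_neg h, if_neg (fun hh => h hh.2)]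
    · intro j _ hj
      rw [if_neg]
      rintro ⟨h, -⟩
      apply hj
      ext
      rw [h, Fin.val_succ, Fin.val_castSucc]
    · intro h
      exact absurd (mem_univ _) h
  · rw [Finset.sum_eq_single (0 : Fin (m + 1))]
    · by_cases h : (0 : Fin (m + 1)) ∉ S ∧ S' = insert 0 S
      · rw [if_pos h, if_pos ⟨by simp, h⟩]
      · rw [if_neg h, if_neg (fun hh => h hh.2)]
    · intro j _ hj
      rw [if_neg]
      rintro ⟨h, -⟩
      exact hj (Fin.ext h)
    · intro h
      exact absurd (mem_univ _) h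

/-- the coordinator's descent count is at most the descent count of `Chain.lean` -/
theorem desc_le (m : ℕ) (S : Finset (Fin (m + 1))) : H4.desc (m + 1) S ≤ desc m S := by
  unfold H4.desc desc
  have hsub : (univ.filter fun k : Fin (m + 1) =>
        2 * (k.val + 1) ≤ m + 1 ∧ k ∈ S ∧ ∀ j : Fin (m + 1), j.val = k.val + 1 → j ∉ S) ⊆
      (univ.filter fun k : Fin m =>
        2 * ((k : ℕ) + 1) ≤ m + 1 ∧ k.castSucc ∈ S ∧ k.succ ∉ S).image Fin.castSucc := by
    intro k hk
    rw [mem_filter] at hk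
    obtain ⟨-, h1, h2, h3⟩ := hk
    have hkm : k.val < m := by omega
    rw [mem_image]
    refine ⟨⟨k.val, hkm⟩, ?_, ?_⟩
    · rw [mem_filter]
      refine ⟨mem_univ _, h1, ?_, ?_⟩
      · have : (⟨k.val, hkm⟩ : Fin m).castSucc = k := by ext; simp
        rw [this]; exact h2
      · exact h3 _ (by simp)
    · ext; simp
  exact (card_le_card hsub).trans card_image_le

/-- **Hypothesis `H2` of `H4.subset_sum_of`.** -/
theorem H2 (n : ℕ) (S : Finset (Fin n)) : (H4.desc n S : ℝ) / 2 ≤ ∑ S', H4.qq n S S' := by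
  cases n with
  | zero =>
    have h0 : H4.desc 0 S = 0 := by
      unfold H4.desc
      simp
    rw [h0]
    have : (0 : ℝ) ≤ ∑ S', H4.qq 0 S S' := by
      apply Finset.sum_nonneg
      intro S' _
      unfold H4.qq
      simp
    simpa using this
  | succ m =>
    have h1 := out_ge m S
    have h2 : (H4.desc (m + 1) S : ℝ) ≤ (desc m S : ℝ) := by exact_mod_cast desc_le m S
    have h3 : ∑ S', H4.qq (m + 1) S S' = ∑ S', q m S S' :=
      Finset.sum_congr rfl (fun S' _ => qq_eq m S S')
    rw [h3]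
    linarith

/-- **Hypothesis `H1` of `H4.subset_sum_of`**: the chain estimate for the kernel `H4.qq`. -/
theorem H1 (n : ℕ) (hn : 16 ≤ n) (a : Fin n → ℝ) (hpos : ∀ i, 0 < a i) (hmono : StrictMono a)
    (x : ℝ) :
    Real.sqrt n * ∑ S ∈ (univ : Finset (Finset (Fin n))).filter
        (fun S => ∑ i ∈ S, a i = x ∧ (n : ℝ) / 2 - Real.sqrt n ≤ (S.card : ℝ)),
      ∑ S', H4.qq n S S' ≤ 10 * 2 ^ n := by
  obtain ⟨m, rfl⟩ : ∃ m, n = m + 1 := ⟨n - 1, by omega⟩
  obtain ⟨h1, h2, h3, h4, h5, h6, h7, -⟩ := chain_hyps m a hpos hmono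
  have key := H44.chain_level (q m) (fun S => ∑ i ∈ S, a i) (fun S => S.card) (m + 1) hn
    h1 h2 h3 h4 h5 h6 h7 x
  have hcard : (Fintype.card (Finset (Fin (m + 1))) : ℝ) = 2 ^ (m + 1) := by
    rw [Fintype.card_finset, Fintype.card_fin]
    push_cast
    rfl
  rw [hcard] at key
  have hq : ∀ S : Finset (Fin (m + 1)), ∑ S', H4.qq (m + 1) S S' = ∑ S', q m S S' :=
    fun S => Finset.sum_congr rfl (fun S' _ => qq_eq m S S')
  simp only [hq]
  exact key

/-- The subset sum bound (piece SS-4 of job 293) with only the count of bad sets (piece SS-3)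
left as a hypothesis: `H4.subset_sum_of` applied to `H1` and `H2`. -/
theorem subset_sum_of_bad
    (H3 : ∃ C : ℝ, 0 < C ∧ ∀ n : ℕ,
      (((univ : Finset (Finset (Fin n))).filter fun S => 128 * H4.desc n S < n).card : ℝ) *
        ((n : ℝ) * Real.sqrt n) ≤ C * 2 ^ n) :
    ∃ C : ℝ, 0 < C ∧ ∀ (n : ℕ) (a : Fin n → ℝ), (∀ i, 0 < a i) → StrictMono a → ∀ x : ℝ,
      (((univ : Finset (Finset (Fin n))).filter fun S => ∑ i ∈ S, a i = x).card : ℝ) *
        ((n : ℝ) * Real.sqrt n) ≤ C * 2 ^ n :=
  H4.subset_sum_of H1 H2 H3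

end Vale.Agent.Lib.P160.H68
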