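import Mathlib

/-!
# P160, pool job 316 (N1): the numeric lemma `rv_num1`

For `D ≥ n^(1/4)` (in the form `Nat.sqrt (Nat.sqrt n) ≤ D`), `D ≤ m ≤ n/30` and `n` large,
`2^n (2D+1)^n (2D+1+m)^m ρ^(n-m-D) ≤ 8^(-n)` with `ρ = C / (D sqrt D) ≤ 1`.
-/

namespace Vale.Agent.Lib.P160.H68

/-- `n < 16 D^4` when `Nat.sqrt (Nat.sqrt n) ≤ D` and `1 ≤ n`. -/
theorem lt_sixteen_pow_four (n D : ℕ) (hn : 1 ≤ n) (hD : Nat.sqrt (Nat.sqrt n) ≤ D) :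
    1 ≤ D ∧ n < 16 * D ^ 4 := by
  have h1 := Nat.lt_succ_sqrt n
  have h2 := Nat.lt_succ_sqrt (Nat.sqrt n)
  have hs1 : 0 < Nat.sqrt n := Nat.sqrt_pos.2 hn
  have hs : 0 < Nat.sqrt (Nat.sqrt n) := Nat.sqrt_pos.2 hs1
  have hD1 : 1 ≤ D := le_trans hs hD
  refine ⟨hD1, ?_⟩
  have h3 : Nat.sqrt n + 1 ≤ (Nat.sqrt (Nat.sqrt n) + 1) * (Nat.sqrt (Nat.sqrt n) + 1) := h2
  have h4 : Nat.sqrt (Nat.sqrt n) + 1 ≤ 2 * D := by omega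
  have h5 : (Nat.sqrt (Nat.sqrt n) + 1) * (Nat.sqrt (Nat.sqrt n) + 1) ≤ (2 * D) * (2 * D) :=
    Nat.mul_le_mul h4 h4
  have h6 : Nat.sqrt n + 1 ≤ (2 * D) * (2 * D) := le_trans h3 h5
  have h7 : (Nat.sqrt n + 1) * (Nat.sqrt n + 1) ≤ ((2 * D) * (2 * D)) * ((2 * D) * (2 * D)) :=
    Nat.mul_le_mul h6 h6
  have h8 : n < ((2 * D) * (2 * D)) * ((2 * D) * (2 * D)) := lt_of_lt_of_le h1 h7
  have h9 : ((2 * D) * (2 * D)) * ((2 * D) * (2 * D)) = 16 * D ^ 4 := by ring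
  rw [h9] at h8
  exact h8

/-- the real-number core of `rv_num1` -/
theorem rv_core (C d ν U V ρ : ℝ) (hC : 0 < C) (hd : 1 ≤ d) (hν : 1 ≤ ν)
    (hK : 4096 * (48 : ℝ) ^ 30 * C ^ 28 + 4096 * C ^ 8 + 16 ≤ ν)
    (hνd : ν < 16 * d ^ 4) (hU0 : 0 ≤ U) (hU : U ≤ 3 * d) (hV1 : 1 ≤ V) (hV : V ≤ ν)
    (hρ0 : 0 ≤ ρ) (hρ2 : ρ ^ 2 = C ^ 2 / d ^ 3) :
    ρ ≤ 1 ∧ (2 : ℝ) ^ 30 * U ^ 30 * V * ρ ^ 28 ≤ (1 / 8) ^ 30 := by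
  have hd0 : 0 < d := by linarith
  have hν0 : 0 < ν := by linarith
  have hC28 : 0 ≤ C ^ 28 := by positivity
  have hC8 : 0 ≤ C ^ 8 := by positivity
  -- `4096 d^12 > ν^3`
  have h12 : ν ^ 3 < 4096 * d ^ 12 := by
    have := pow_lt_pow_left₀ hνd hν0.le (n := 3) (by norm_num)
    calc ν ^ 3 < (16 * d ^ 4) ^ 3 := this
      _ = 4096 * d ^ 12 := by ring
  have hν2 : ν ≤ ν ^ 2 := by nlinarith
  have hν3 : ν ≤ ν ^ 3 := by nlinarith [sq_nonneg ν]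
  -- `d^12 > C^8`
  have hd12C : C ^ 8 < d ^ 12 := by
    have : 4096 * C ^ 8 ≤ ν ^ 3 := by
      have h48 : (0 : ℝ) ≤ 4096 * (48 : ℝ) ^ 30 * C ^ 28 := by positivity
      linarith
    linarith
  -- `d^12 ≥ 48^30 C^28 ν`
  have hd12 : (48 : ℝ) ^ 30 * C ^ 28 * ν ≤ d ^ 12 := by
    have h1 : 4096 * (48 : ℝ) ^ 30 * C ^ 28 ≤ ν ^ 2 := by
      have : (0 : ℝ) ≤ 4096 * C ^ 8 := by positivity
      linarith
    have h2 : 4096 * (48 : ℝ) ^ 30 * C ^ 28 * ν ≤ ν ^ 2 * ν :=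
      mul_le_mul_of_nonneg_right h1 hν0.le
    have h3 : ν ^ 2 * ν = ν ^ 3 := by ring
    nlinarith
  have hρ1 : ρ ≤ 1 := by
    by_contra hcon
    rw [not_le] at hcon
    have h1 : (1 : ℝ) < ρ ^ 2 := by nlinarith
    rw [hρ2, lt_div_iff₀ (by positivity)] at h1
    -- `d^3 < C^2`
    have h2 : (d ^ 3) ^ 4 < (C ^ 2) ^ 4 :=
      pow_lt_pow_left₀ (by linarith) (by positivity) (by norm_num)
    have h3 : (d ^ 3) ^ 4 = d ^ 12 := by ring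
    have h4 : (C ^ 2) ^ 4 = C ^ 8 := by ring
    rw [h3, h4] at h2
    linarith
  refine ⟨hρ1, ?_⟩
  have hρ28 : ρ ^ 28 = C ^ 28 / d ^ 42 := by
    have : ρ ^ 28 = (ρ ^ 2) ^ 14 := by ring
    rw [this, hρ2, div_pow]
    congr 1 <;> ring
  have hU30 : U ^ 30 ≤ (3 * d) ^ 30 := pow_le_pow_left₀ hU0 hU 30
  have hρ28nn : 0 ≤ ρ ^ 28 := by positivity
  calc (2 : ℝ) ^ 30 * U ^ 30 * V * ρ ^ 28
      ≤ (2 : ℝ) ^ 30 * (3 * d) ^ 30 * ν * ρ ^ 28 := by gcongr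
    _ = (6 : ℝ) ^ 30 * C ^ 28 * ν / d ^ 12 := by
        rw [hρ28]
        field_simp
        ring
    _ ≤ (1 / 8) ^ 30 := by
        rw [div_le_iff₀ (by positivity)]
        calc (6 : ℝ) ^ 30 * C ^ 28 * ν = (1 / 8) ^ 30 * ((48 : ℝ) ^ 30 * C ^ 28 * ν) := by ring
          _ ≤ (1 / 8) ^ 30 * d ^ 12 := by gcongr

theorem rv_num1 (C : ℝ) (hC : 0 < C) : ∃ N₀ : ℕ, ∀ m n D : ℕ, N₀ ≤ n → 30 * m ≤ n →
    Nat.sqrt (Nat.sqrt n) ≤ D → D ≤ m →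
    C / ((D : ℝ) * Real.sqrt (D : ℝ)) ≤ 1 ∧
    (2 : ℝ) ^ n * ((2 * D + 1 : ℕ) : ℝ) ^ n * ((2 * D + 1 + m : ℕ) : ℝ) ^ m *
      (C / ((D : ℝ) * Real.sqrt (D : ℝ))) ^ (n - m - D) ≤ (1 / 8) ^ n := by
  refine ⟨⌈4096 * (48 : ℝ) ^ 30 * C ^ 28 + 4096 * C ^ 8 + 16⌉₊, ?_⟩
  intro m n D hN hm hD hDm
  have hK : 4096 * (48 : ℝ) ^ 30 * C ^ 28 + 4096 * C ^ 8 + 16 ≤ (n : ℝ) :=
    le_trans (Nat.le_ceil _) (by exact_mod_cast hN)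
  have hn16 : (16 : ℝ) ≤ (n : ℝ) := by
    have h1 : (0 : ℝ) ≤ 4096 * (48 : ℝ) ^ 30 * C ^ 28 := by positivity
    have h2 : (0 : ℝ) ≤ 4096 * C ^ 8 := by positivity
    linarith
  have hn1 : 1 ≤ n := by
    have : (1 : ℝ) ≤ (n : ℝ) := by linarith
    exact_mod_cast this
  obtain ⟨hD1, hnD⟩ := lt_sixteen_pow_four n D hn1 hD
  have hd1 : (1 : ℝ) ≤ (D : ℝ) := by exact_mod_cast hD1
  have hd0 : (0 : ℝ) < (D : ℝ) := by linarith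
  have hnD' : (n : ℝ) < 16 * (D : ℝ) ^ 4 := by exact_mod_cast hnD
  have hsq : Real.sqrt (D : ℝ) ^ 2 = (D : ℝ) := Real.sq_sqrt hd0.le
  have hsq0 : 0 < Real.sqrt (D : ℝ) := Real.sqrt_pos.2 hd0
  set ρ : ℝ := C / ((D : ℝ) * Real.sqrt (D : ℝ)) with hρ
  have hρ0 : 0 ≤ ρ := by rw [hρ]; positivity
  have hρ2 : ρ ^ 2 = C ^ 2 / (D : ℝ) ^ 3 := by
    rw [hρ, div_pow, mul_pow, hsq]
    congr 1
  set U : ℝ := ((2 * D + 1 : ℕ) : ℝ) with hU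
  set V : ℝ := ((2 * D + 1 + m : ℕ) : ℝ) with hV
  have hU0 : 0 ≤ U := by rw [hU]; positivity
  have hU3 : U ≤ 3 * (D : ℝ) := by
    rw [hU]
    have : 2 * D + 1 ≤ 3 * D := by omega
    exact_mod_cast this
  have hV1 : 1 ≤ V := by
    rw [hV]
    have : 1 ≤ 2 * D + 1 + m := by omega
    exact_mod_cast this
  have hVn : V ≤ (n : ℝ) := by
    rw [hV]
    have : 2 * D + 1 + m ≤ n := by omega
    exact_mod_cast this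
  obtain ⟨hρ1, hB⟩ := rv_core C (D : ℝ) (n : ℝ) U V ρ hC hd1 (by linarith) hK hnD' hU0 hU3 hV1
    hVn hρ0 hρ2
  refine ⟨hρ1, ?_⟩
  -- the 30th power of the left side
  have he : 28 * n ≤ (n - m - D) * 30 := by omega
  have hm30 : m * 30 ≤ n := by omega
  have hV0 : 0 ≤ V := by linarith
  have hA0 : 0 ≤ (2 : ℝ) ^ n * U ^ n * V ^ m * ρ ^ (n - m - D) := by positivity
  have hb0 : (0 : ℝ) ≤ (1 / 8) ^ n := by positivity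
  have hB0 : 0 ≤ (2 : ℝ) ^ 30 * U ^ 30 * V * ρ ^ 28 := by positivity
  have key : ((2 : ℝ) ^ n * U ^ n * V ^ m * ρ ^ (n - m - D)) ^ 30 ≤ ((1 / 8 : ℝ) ^ n) ^ 30 := by
    calc ((2 : ℝ) ^ n * U ^ n * V ^ m * ρ ^ (n - m - D)) ^ 30
        = (2 : ℝ) ^ (n * 30) * U ^ (n * 30) * V ^ (m * 30) * ρ ^ ((n - m - D) * 30) := by
          rw [mul_pow, mul_pow, mul_pow, ← pow_mul, ← pow_mul, ← pow_mul, ← pow_mul]
      _ ≤ (2 : ℝ) ^ (n * 30) * U ^ (n * 30) * V ^ n * ρ ^ (28 * n) := by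
          have h1 : V ^ (m * 30) ≤ V ^ n := pow_le_pow_right₀ hV1 hm30
          have h2 : ρ ^ ((n - m - D) * 30) ≤ ρ ^ (28 * n) := pow_le_pow_of_le_one hρ0 hρ1 he
          gcongr
      _ = ((2 : ℝ) ^ 30 * U ^ 30 * V * ρ ^ 28) ^ n := by
          rw [mul_pow, mul_pow, mul_pow, ← pow_mul, ← pow_mul, ← pow_mul, mul_comm n 30]
      _ ≤ ((1 / 8 : ℝ) ^ 30) ^ n := pow_le_pow_left₀ hB0 hB n
      _ = ((1 / 8 : ℝ) ^ n) ^ 30 := by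
          rw [← pow_mul, ← pow_mul, mul_comm]
  exact (pow_le_pow_iff_left₀ hA0 hb0 (by norm_num)).1 key

end Vale.Agent.Lib.P160.H68
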