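import Mathlib

/-!
# P160, pool job 317 (N2): the numeric lemma `rv_num2`

For `n ≥ 2^2400` and `30 m ≤ n`, with `s = Nat.sqrt (Nat.sqrt n)`:
`(2^n (2s+1)^n)^2 2^(7n) ≤ (n - (m + (2s+1)) - ⌈40 n / log₂ n⌉)!`.
-/

namespace Vale.Agent.Lib.P160.H68

theorem pow_id (a n : ℕ) : (2 ^ n * a ^ n) ^ 2 * 2 ^ (7 * n) = (2 ^ 9 * a ^ 2) ^ n := by
  have e1 : (2 ^ n * a ^ n) ^ 2 * 2 ^ (7 * n) = 2 ^ (9 * n) * a ^ (2 * n) := by
    rw [mul_pow, ← pow_mul, ← pow_mul, mul_right_comm, ← pow_add]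
    congr 2 <;> ring
  have e2 : (2 ^ 9 * a ^ 2) ^ n = 2 ^ (9 * n) * a ^ (2 * n) := by
    rw [mul_pow, ← pow_mul, ← pow_mul]
  rw [e1, e2]

theorem rv_num2 : ∃ N₀ : ℕ, ∀ m n : ℕ, N₀ ≤ n → 30 * m ≤ n →
    (2 ^ n * (2 * Nat.sqrt (Nat.sqrt n) + 1) ^ n) ^ 2 * 2 ^ (7 * n) ≤
      (n - (m + (2 * Nat.sqrt (Nat.sqrt n) + 1)) -
        ⌈40 * (n : ℝ) / Real.logb 2 (n : ℝ)⌉₊).factorial := by
  refine ⟨⌈(2 : ℝ) ^ 2400⌉₊, ?_⟩
  intro m n hN hm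
  have hNR : (2 : ℝ) ^ 2400 ≤ (n : ℝ) := le_trans (Nat.le_ceil _) (by exact_mod_cast hN)
  clear hN
  have hbig : 1000 * 4608 ^ 4 ≤ n := by
    have h1 : ((1000 * 4608 ^ 4 : ℕ) : ℝ) ≤ (2 : ℝ) ^ 60 := by norm_num
    have h2 : (2 : ℝ) ^ 60 ≤ (2 : ℝ) ^ 2400 := pow_le_pow_right₀ (by norm_num) (by norm_num)
    have h3 : ((1000 * 4608 ^ 4 : ℕ) : ℝ) ≤ (n : ℝ) := le_trans h1 (le_trans h2 hNR)
    exact_mod_cast h3
  have hn8100 : 90 * 90 ≤ n := le_trans (by norm_num) hbig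
  have hn70 : 70 ≤ n := le_trans (by norm_num) hbig
  set r := Nat.sqrt n with hr
  set s := Nat.sqrt r with hs
  have hr2 : r * r ≤ n := Nat.sqrt_le n
  have hs2 : s * s ≤ r := Nat.sqrt_le r
  have hr90 : 90 ≤ r := Nat.le_sqrt.2 hn8100
  have hs1 : 1 ≤ s := Nat.le_sqrt.2 (by omega)
  have hsr : s ≤ r := by nlinarith
  have hL30 : 30 * (2 * s + 1) ≤ n := by nlinarith
  set c := ⌈40 * (n : ℝ) / Real.logb 2 (n : ℝ)⌉₊ with hc
  have hc30 : 30 * c ≤ n := by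
    have hnpos : (0 : ℝ) < n := lt_of_lt_of_le (by positivity) hNR
    have hL : (2400 : ℝ) ≤ Real.logb 2 (n : ℝ) := by
      have h1 : Real.logb 2 ((2 : ℝ) ^ 2400) ≤ Real.logb 2 (n : ℝ) :=
        Real.logb_le_logb_of_le (by norm_num) (by positivity) hNR
      have h2 : Real.logb 2 ((2 : ℝ) ^ 2400) = 2400 := by
        rw [Real.logb_pow, Real.logb_self_eq_one (by norm_num)]
        norm_num
      linarith
    have h3 : 40 * (n : ℝ) / Real.logb 2 (n : ℝ) ≤ (n : ℝ) / 60 := by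
      rw [div_le_div_iff₀ (by linarith) (by norm_num)]
      nlinarith
    have h4 : (c : ℝ) < 40 * (n : ℝ) / Real.logb 2 (n : ℝ) + 1 :=
      Nat.ceil_lt_add_one (by positivity)
    have h5 : (70 : ℝ) ≤ n := by exact_mod_cast hn70
    have h4' : (c : ℝ) < (n : ℝ) / 60 + 1 := lt_of_lt_of_le h4 (by linarith only [h3])
    have h6 : ((30 * c : ℕ) : ℝ) ≤ ((n : ℕ) : ℝ) := by
      push_cast
      linarith only [h4', h5]
    exact_mod_cast h6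
  set k := n - (m + (2 * s + 1)) - c with hk
  have hk9 : 9 * n ≤ 10 * k := by omega
  set j := k / 8 with hj
  have hj8 : 8 * j ≤ k := by omega
  have hj8' : k ≤ 8 * j + 7 := by omega
  have hjn : n ≤ 10 * j := by omega
  have he : 3 * n ≤ 4 * (k - j) := by omega
  have hj1 : 1 ≤ j := by omega
  -- the left side is at most `(4608 r)^n`
  have hLs : (2 * s + 1) ^ 2 ≤ 9 * r := by nlinarith
  have hLHS : (2 ^ n * (2 * s + 1) ^ n) ^ 2 * 2 ^ (7 * n) ≤ (4608 * r) ^ n := by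
    calc (2 ^ n * (2 * s + 1) ^ n) ^ 2 * 2 ^ (7 * n)
        = (2 ^ 9 * (2 * s + 1) ^ 2) ^ n := pow_id (2 * s + 1) n
      _ ≤ (2 ^ 9 * (9 * r)) ^ n := Nat.pow_le_pow_left (Nat.mul_le_mul_left _ hLs) n
      _ = (4608 * r) ^ n := by
          congr 1
          ring
  have hcore : (4608 * r) ^ 4 ≤ j ^ 3 := by
    have h1 : n ^ 3 ≤ (10 * j) ^ 3 := Nat.pow_le_pow_left hjn 3
    have h2 : (4608 * r) ^ 4 = 4608 ^ 4 * (r * r) ^ 2 := by ring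
    have h3 : (r * r) ^ 2 ≤ n ^ 2 := Nat.pow_le_pow_left hr2 2
    have h4 : 1000 * 4608 ^ 4 * n ^ 2 ≤ n ^ 3 := by
      calc 1000 * 4608 ^ 4 * n ^ 2 ≤ n * n ^ 2 := Nat.mul_le_mul_right _ hbig
        _ = n ^ 3 := by ring
    have h5 : 1000 * (4608 ^ 4 * n ^ 2) ≤ 1000 * j ^ 3 := by
      calc 1000 * (4608 ^ 4 * n ^ 2) = 1000 * 4608 ^ 4 * n ^ 2 := by ring
        _ ≤ n ^ 3 := h4
        _ ≤ (10 * j) ^ 3 := h1
        _ = 1000 * j ^ 3 := by ring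
    have h6 : 4608 ^ 4 * n ^ 2 ≤ j ^ 3 := Nat.le_of_mul_le_mul_left h5 (by norm_num)
    calc (4608 * r) ^ 4 = 4608 ^ 4 * (r * r) ^ 2 := h2
      _ ≤ 4608 ^ 4 * n ^ 2 := Nat.mul_le_mul_left _ h3
      _ ≤ j ^ 3 := h6
  have hpow : (4608 * r) ^ n ≤ j ^ (k - j) := by
    have h1 : ((4608 * r) ^ n) ^ 4 ≤ (j ^ (k - j)) ^ 4 := by
      calc ((4608 * r) ^ n) ^ 4 = ((4608 * r) ^ 4) ^ n := by
            rw [← pow_mul, ← pow_mul, Nat.mul_comm n 4]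
        _ ≤ (j ^ 3) ^ n := Nat.pow_le_pow_left hcore n
        _ = j ^ (3 * n) := by rw [← pow_mul]
        _ ≤ j ^ (4 * (k - j)) := Nat.pow_le_pow_right hj1 he
        _ = (j ^ (k - j)) ^ 4 := by rw [← pow_mul, Nat.mul_comm (k - j) 4]
    exact (Nat.pow_le_pow_iff_left (by norm_num)).1 h1
  calc (2 ^ n * (2 * s + 1) ^ n) ^ 2 * 2 ^ (7 * n) ≤ (4608 * r) ^ n := hLHS
    _ ≤ j ^ (k - j) := hpow
    _ ≤ j.factorial * j ^ (k - j) := Nat.le_mul_of_pos_left _ (Nat.factorial_pos _)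
    _ ≤ k.factorial := Nat.factorial_mul_pow_sub_le_factorial (by omega)

end Vale.Agent.Lib.P160.H68
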